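import Vale.Agent.P054.Spread.Final
import Vale.Agent.P118.OS.FinalAll
import Vale.Agent.P118.H881.PFin

/-! Distinct distances in `ℝ^d`: the exponent `2 / d`, up to `ε`, for sets of nearly minimal spread,
for homogeneous sets, and for sets which are dense in a ball, in every dimension `d ≥ 2`. -/

open MeasureTheory
open scoped ENNReal

namespace Vale.Agent.Results.P054.MinimalSpread

/-- Falconer's theorem (every dimension) in the form used here. -/
theorem falc (d : ℕ) (hd2 : 2 ≤ d) : Vale.Agent.P054.Spread.Falc d := by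
  intro E hE hdim
  have hdim' : ENNReal.ofReal ((d:ℝ) / 2) < dimH E := by
    have e : ENNReal.ofReal ((d:ℝ) / 2) = (d : ℝ≥0∞) / 2 := by
      rw [ENNReal.ofReal_div_of_pos (by norm_num), ENNReal.ofReal_natCast, ENNReal.ofReal_ofNat]
    rwa [e]
  have h := Vale.Agent.P118.OS.FA.stThrAll_of2 (fun _ _ => Vale.Agent.P118.H881.stPF _) d hd2 E hE
    hdim'
  have hset : {r : ℝ | ∃ x ∈ E, ∃ y ∈ E, r = dist x y} =
      (fun z : Vale.Agent.P118.FD.Ed d × Vale.Agent.P118.FD.Ed d => dist z.1 z.2) ''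
        (E ×ˢ E) := by
    ext r
    constructor
    · rintro ⟨x, hx, y, hy, rfl⟩
      exact ⟨(x, y), ⟨hx, hy⟩, rfl⟩
    · rintro ⟨⟨x, y⟩, ⟨hx, hy⟩, rfl⟩
      exact ⟨x, hx, y, hy, rfl⟩
  rw [hset]
  exact h

/-- Let `d ≥ 2` and `ε > 0`.

(1) There are `η, c > 0` such that every `n`-point set `P ⊆ ℝ^d`, `n ≥ 2`, whose mutual distances
lie between `r` and `r * n ^ (1 / d + η)` for some `r > 0`, determines at least
`c * n ^ (2 / d - ε)` distinct distances.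

(2) For every `K` there is `c > 0` such that every `n`-point set `P ⊆ ℝ^d`, `n ≥ 2`, of diameter at
most `K * n ^ (1 / d)` and with at most `K` points in each closed ball of radius one determines at
least `c * n ^ (2 / d - ε)` distinct distances.

(3) There is `c > 0` such that every finite set `P ⊆ ℝ^d` which is `ρ`-dense in some ball of radius
`R > ρ > 0` determines at least `c * (R / ρ) ^ (2 - ε)` distinct distances. -/
theorem result (d : ℕ) (hd : 2 ≤ d) (ε : ℝ) (hε : 0 < ε) :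
    (∃ η : ℝ, 0 < η ∧ ∃ c : ℝ, 0 < c ∧
      ∀ (P : Finset (EuclideanSpace ℝ (Fin d))) (r : ℝ), 2 ≤ P.card → 0 < r →
        (∀ p ∈ P, ∀ q ∈ P, p ≠ q → r ≤ dist p q) →
        (∀ p ∈ P, ∀ q ∈ P, dist p q ≤ r * (P.card : ℝ) ^ ((1:ℝ) / d + η)) →
        c * (P.card : ℝ) ^ ((2:ℝ) / d - ε) ≤
          ({t : ℝ | ∃ p ∈ P, ∃ q ∈ P, p ≠ q ∧ dist p q = t}.ncard : ℝ)) ∧
    (∀ K : ℝ, ∃ c : ℝ, 0 < c ∧ ∀ P : Finset (EuclideanSpace ℝ (Fin d)), 2 ≤ P.card →
        (∀ p ∈ P, ∀ q ∈ P, dist p q ≤ K * (P.card : ℝ) ^ ((1:ℝ) / d)) →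
        (∀ x : EuclideanSpace ℝ (Fin d),
          ({p : EuclideanSpace ℝ (Fin d) | p ∈ P ∧ dist p x ≤ 1}.ncard : ℝ) ≤ K) →
        c * (P.card : ℝ) ^ ((2:ℝ) / d - ε) ≤
          ({t : ℝ | ∃ p ∈ P, ∃ q ∈ P, p ≠ q ∧ dist p q = t}.ncard : ℝ)) ∧
    (∃ c : ℝ, 0 < c ∧
      ∀ (P : Finset (EuclideanSpace ℝ (Fin d))) (x : EuclideanSpace ℝ (Fin d)) (R ρ : ℝ),
        0 < ρ → ρ < R → (∀ y ∈ Metric.closedBall x R, ∃ p ∈ P, dist y p ≤ ρ) →
        c * (R / ρ) ^ (2 - ε) ≤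
          ({t : ℝ | ∃ p ∈ P, ∃ q ∈ P, p ≠ q ∧ dist p q = t}.ncard : ℝ)) := by
  have hF := falc d hd
  refine ⟨?_, fun K => ?_, ?_⟩
  · obtain ⟨η, hη, c, hc, h⟩ := Vale.Agent.P054.Spread.spread_main hd hF hε
    refine ⟨η, hη, c, hc, fun P r hP hr h1 h2 => ?_⟩
    rw [Vale.Agent.P054.Spread.ncard_dset]
    exact h P r hP hr h1 h2
  · rcases lt_or_ge K 1 with hK | hK
    · refine ⟨1, one_pos, fun P hP _ hball => ?_⟩
      exfalso
      obtain ⟨p, hp⟩ : P.Nonempty := Finset.card_pos.1 (by omega)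
      have h1 := hball p
      rw [Vale.Agent.P054.Spread.ncard_inBall] at h1
      have h2 : 1 ≤ (Vale.Agent.P054.Spread.inBall P p 1).card :=
        Finset.card_pos.2 ⟨p, Vale.Agent.P054.Spread.mem_inBall.2 ⟨hp, by simp⟩⟩
      have h3 : (1:ℝ) ≤ (Vale.Agent.P054.Spread.inBall P p 1).card := by exact_mod_cast h2
      linarith
    · obtain ⟨c, hc, h⟩ := Vale.Agent.P054.Spread.homog_main hd hF hε hK
      refine ⟨c, hc, fun P hP h1 h2 => ?_⟩
      rw [Vale.Agent.P054.Spread.ncard_dset]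
      refine h P hP h1 fun x => ?_
      have h3 := h2 x
      rwa [Vale.Agent.P054.Spread.ncard_inBall] at h3
  · obtain ⟨c, hc, h⟩ := Vale.Agent.P054.Spread.dense_main hd hF hε
    refine ⟨c, hc, fun P x R ρ hρ hρR h1 => ?_⟩
    rw [Vale.Agent.P054.Spread.ncard_dset]
    exact h P x R ρ hρ hρR h1

end Vale.Agent.Results.P054.MinimalSpread
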