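import Vale.Agent.Results.P054.SpaceTwoThirds
import Vale.Agent.Results.P054.MinimalSpread
import Vale.Agent.P054.H421.Defs

set_option autoImplicit false
set_option linter.all false

/-! Distinct distances in `ℝ^d`: the exponent `2/3 - ε` in dimension three, the exponent
`2 d / (d^2 + 1) - ε` in every dimension, and the conjectured exponent `2/d`, up to `ε`, for
structured, for well-distributed and for nearly minimally spread sets in every dimension. -/

namespace Vale.Agent.Results.P054.TwoThirdsAndSpread

open Vale.Agent.P054.H421

theorem result :
    -- all point sets: dimension three, and all dimensions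
    SpaceTwoThirds ∧ AllDimensions ∧
    -- large additive energy; few points on any hyperplane
    LargeEnergy ∧ FewOnHyperplanes ∧
    -- nearly minimal spread; homogeneous sets; sets which are dense in a ball
    NearlyMinimalSpread ∧ Homogeneous ∧ DenseInBall := by
  obtain ⟨h1, h2, h3, h4⟩ := Vale.Agent.Results.P054.SpaceTwoThirds.result
  refine ⟨h1, h2, h3, h4, ?_, ?_, ?_⟩
  · intro d hd ε hε
    exact (Vale.Agent.Results.P054.MinimalSpread.result d hd ε hε).1
  · intro d hd ε hε
    exact (Vale.Agent.Results.P054.MinimalSpread.result d hd ε hε).2.1
  · intro d hd ε hε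
    exact (Vale.Agent.Results.P054.MinimalSpread.result d hd ε hε).2.2

end Vale.Agent.Results.P054.TwoThirdsAndSpread
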